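import Mathlib
import Vale.Agent.Lib.P335.helper26.BipDefs

/-!
Johnson step for the bipartite switch chain (P335): for a pair `p` of rows, the Dirichlet form
of the switches inside `p` dominates twice the pair resampling projection `I - R p`.

Main statements:
* `form_nonneg_of_eigen` : a symmetric operator on functions over a finite type all of whose
  eigenvalues are nonnegative has a nonnegative quadratic form (spectral theorem).
* `gap_two_of_involutions` : abstract maximum principle.
* `fibre_connected` : two matrices with the same rows outside the pair `p` are joined by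
  switches inside `p`.
* `johnson_pair` : the Johnson step.
-/

namespace Vale.Agent.Lib.P335.Bip.H50

open Finset

theorem form_nonneg_of_eigen {Ω : Type*} [Fintype Ω] (T : (Ω → ℝ) →ₗ[ℝ] (Ω → ℝ))
    (hsym : ∀ f g, ip (T f) g = ip f (T g))
    (h : ∀ (g : Ω → ℝ) (μ : ℝ), g ≠ 0 → T g = μ • g → 0 ≤ μ) (f : Ω → ℝ) :
    0 ≤ ip f (T f) := by
  classical
  let e : EuclideanSpace ℝ Ω ≃ₗ[ℝ] (Ω → ℝ) := WithLp.linearEquiv 2 ℝ (Ω → ℝ)
  let T' : EuclideanSpace ℝ Ω →ₗ[ℝ] EuclideanSpace ℝ Ω :=
    e.symm.toLinearMap ∘ₗ T ∘ₗ e.toLinearMap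
  have hip : ∀ u v : EuclideanSpace ℝ Ω, inner ℝ u v = ip (e u) (e v) := by
    intro u v
    simp only [PiLp.inner_apply, ip]
    apply Finset.sum_congr rfl
    intro i _
    simp [e, mul_comm]
  have hT' : T'.IsSymmetric := by
    intro u v
    rw [hip, hip]
    simp only [T', LinearMap.comp_apply, LinearEquiv.coe_coe, LinearEquiv.apply_symm_apply]
    exact hsym _ _
  have hTe : ∀ u, e (T' u) = T (e u) := by
    intro u
    simp only [T', LinearMap.comp_apply, LinearEquiv.coe_coe, LinearEquiv.apply_symm_apply]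
  have key : ∀ i, 0 ≤ hT'.eigenvalues rfl i := by
    intro i
    have h1 := hT'.apply_eigenvectorBasis rfl i
    have h2 : T (e (hT'.eigenvectorBasis rfl i))
        = (hT'.eigenvalues rfl i) • e (hT'.eigenvectorBasis rfl i) := by
      rw [← hTe, h1, map_smul]
      rfl
    apply h _ _ _ h2
    intro h0
    have h3 : hT'.eigenvectorBasis rfl i = 0 := by
      apply e.injective
      rw [h0, map_zero]
    exact (hT'.eigenvectorBasis rfl).orthonormal.ne_zero i h3
  have hf : ip f (T f) = inner ℝ (e.symm f) (T' (e.symm f)) := by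
    rw [hip, hTe]
    simp
  rw [hf, ← (hT'.eigenvectorBasis rfl).sum_inner_mul_inner]
  apply Finset.sum_nonneg
  intro i _
  have h4 : inner ℝ (hT'.eigenvectorBasis rfl i) (T' (e.symm f))
      = hT'.eigenvalues rfl i * inner ℝ (e.symm f) (hT'.eigenvectorBasis rfl i) := by
    rw [← hT' _ _, hT'.apply_eigenvectorBasis rfl i, inner_smul_left, real_inner_comm]
    rfl
  rw [h4]
  have := key i
  nlinarith [mul_self_nonneg (inner ℝ (e.symm f) (hT'.eigenvectorBasis rfl i))]


section cexpfacts

variable {Ω K : Type*} [Fintype Ω] [DecidableEq K] (κ : Ω → K)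

theorem ip_comm' (f g : Ω → ℝ) : ip f g = ip g f := by
  simp only [ip]
  apply Finset.sum_congr rfl
  intro x _
  ring

theorem ip_sub_right' (f g h : Ω → ℝ) : ip f (g - h) = ip f g - ip f h := by
  simp only [ip, Pi.sub_apply, mul_sub, Finset.sum_sub_distrib]

theorem ip_smul_right' (a : ℝ) (f g : Ω → ℝ) : ip f (a • g) = a * ip f g := by
  simp only [ip, Pi.smul_apply, smul_eq_mul, Finset.mul_sum]
  apply Finset.sum_congr rfl
  intro x _
  ring

theorem eq_zero_of_ip_self' (f : Ω → ℝ) (h : ip f f = 0) : f = 0 := by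
  funext x
  have h1 : ∀ y ∈ (univ : Finset Ω), 0 ≤ f y * f y := fun y _ => mul_self_nonneg _
  have h2 := (Finset.sum_eq_zero_iff_of_nonneg h1).mp h x (mem_univ x)
  simpa using h2

theorem cexp_apply' (f : Ω → ℝ) (x : Ω) :
    cexp κ f x = (∑ y ∈ univ.filter (fun y => κ y = κ x), f y) /
      ((univ.filter (fun y => κ y = κ x)).card : ℝ) := rfl

theorem cexp_congr_fibre' (f : Ω → ℝ) {x x' : Ω} (hxy : κ x = κ x') :
    cexp κ f x = cexp κ f x' := by
  rw [cexp_apply', cexp_apply', hxy]

theorem cexp_eq_self_of_const' (h : Ω → ℝ) (hh : ∀ x y, κ x = κ y → h x = h y) :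
    cexp κ h = h := by
  funext x
  rw [cexp_apply']
  have h1 : ∑ y ∈ univ.filter (fun y => κ y = κ x), h y
      = ((univ.filter (fun y => κ y = κ x)).card : ℝ) * h x := by
    rw [Finset.sum_congr rfl (fun y hy => hh y x (Finset.mem_filter.mp hy).2)]
    simp
  have h2 : ((univ.filter (fun y => κ y = κ x)).card : ℝ) ≠ 0 := by
    have h3 : x ∈ univ.filter (fun y => κ y = κ x) := by simp
    have h4 := Finset.card_pos.mpr ⟨x, h3⟩
    exact_mod_cast h4.ne'
  rw [h1]
  field_simp

theorem cexp_symm' (f g : Ω → ℝ) : ip (cexp κ f) g = ip f (cexp κ g) := by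
  have hL : ip (cexp κ f) g = ∑ x, ∑ y, if κ y = κ x then
      f y * g x / ((univ.filter (fun z => κ z = κ x)).card : ℝ) else 0 := by
    simp only [ip, cexp_apply']
    apply Finset.sum_congr rfl
    intro x _
    rw [div_mul_eq_mul_div, Finset.sum_mul, Finset.sum_div, Finset.sum_filter]
  have hR : ip f (cexp κ g) = ∑ x, ∑ y, if κ y = κ x then
      f x * g y / ((univ.filter (fun z => κ z = κ x)).card : ℝ) else 0 := by
    simp only [ip, cexp_apply']
    apply Finset.sum_congr rfl
    intro x _
    rw [mul_div_assoc', Finset.mul_sum, Finset.sum_div, Finset.sum_filter]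
  rw [hL, hR, Finset.sum_comm]
  apply Finset.sum_congr rfl
  intro x _
  apply Finset.sum_congr rfl
  intro y _
  by_cases hxy : κ x = κ y
  · rw [if_pos hxy, if_pos hxy.symm, hxy]
  · rw [if_neg hxy, if_neg (fun h => hxy h.symm)]

end cexpfacts


/-- Abstract maximum principle: a graph whose edges stay inside the fibres of `κ`, whose fibres
are connected, and such that every edge `x y` is exchanged by an involutive automorphism moving
every vertex at most along an edge, has Dirichlet form at least `2 (I - E[. | κ])`. -/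
theorem gap_two_of_involutions {Ω K : Type*} [Fintype Ω] [DecidableEq K]
    (κ : Ω → K) (adj : Ω → Ω → Prop) [DecidableRel adj]
    (hsymm : ∀ x y, adj x y → adj y x)
    (hκ : ∀ x y, adj x y → κ x = κ y)
    (hconn : ∀ x y, κ x = κ y → Relation.ReflTransGen adj x y)
    (hσ : ∀ x y, adj x y → ∃ σ : Ω → Ω, σ x = y ∧ (∀ z, σ (σ z) = z) ∧
      (∀ z w, adj z w → adj (σ z) (σ w)) ∧ (∀ z, σ z = z ∨ adj z (σ z)))
    (f : Ω → ℝ) :
    4 * (ip f f - ip f (cexp κ f)) ≤ ∑ x, ∑ y, if adj x y then (f x - f y) ^ 2 else 0 := by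
  classical
  let Lop : (Ω → ℝ) →ₗ[ℝ] (Ω → ℝ) :=
    { toFun := fun g x => ∑ y, if adj x y then g x - g y else 0
      map_add' := by
        intro u v
        funext x
        simp only [Pi.add_apply]
        rw [← Finset.sum_add_distrib]
        apply Finset.sum_congr rfl
        intro y _
        split_ifs <;> ring
      map_smul' := by
        intro a u
        funext x
        simp only [Pi.smul_apply, smul_eq_mul, RingHom.id_apply]
        rw [Finset.mul_sum]
        apply Finset.sum_congr rfl
        intro y _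
        split_ifs <;> ring }
  have hL : ∀ g x, Lop g x = ∑ y, if adj x y then g x - g y else 0 := fun _ _ => rfl
  have hD : ∀ u v : Ω → ℝ, 2 * ip u (Lop v)
      = ∑ x, ∑ y, if adj x y then (u x - u y) * (v x - v y) else 0 := by
    intro u v
    have h1 : ip u (Lop v) = ∑ x, ∑ y, if adj x y then u x * (v x - v y) else 0 := by
      simp only [ip, hL, Finset.mul_sum]
      apply Finset.sum_congr rfl
      intro x _
      apply Finset.sum_congr rfl
      intro y _
      split_ifs <;> simp
    have h2 : ip u (Lop v) = ∑ x, ∑ y, if adj x y then u y * (v y - v x) else 0 := by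
      rw [h1, Finset.sum_comm]
      apply Finset.sum_congr rfl
      intro x _
      apply Finset.sum_congr rfl
      intro y _
      by_cases hxy : adj x y
      · rw [if_pos hxy, if_pos (hsymm x y hxy)]
      · rw [if_neg hxy, if_neg (fun h => hxy (hsymm y x h))]
    have h3 : 2 * ip u (Lop v) = ip u (Lop v) + ip u (Lop v) := by ring
    rw [h3]
    nth_rewrite 1 [h1]
    rw [h2, ← Finset.sum_add_distrib]
    apply Finset.sum_congr rfl
    intro x _
    rw [← Finset.sum_add_distrib]
    apply Finset.sum_congr rfl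
    intro y _
    split_ifs <;> ring
  -- the Laplacian kills fibrewise constant functions, in both slots
  have hLc : ∀ u v : Ω → ℝ, (∀ x y, κ x = κ y → u x = u y) → ip u (Lop v) = 0 := by
    intro u v hu
    have h1 := hD u v
    have h2 : ∑ x, ∑ y, (if adj x y then (u x - u y) * (v x - v y) else 0) = 0 := by
      apply Finset.sum_eq_zero
      intro x _
      apply Finset.sum_eq_zero
      intro y _
      split_ifs with hxy
      · rw [hu x y (hκ x y hxy)]
        ring
      · rfl
    linarith
  have hLsym : ∀ u v : Ω → ℝ, ip (Lop u) v = ip u (Lop v) := by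
    intro u v
    rw [ip_comm' (Lop u) v]
    have h1 := hD v u
    have h2 := hD u v
    have h3 : ∑ x, ∑ y, (if adj x y then (v x - v y) * (u x - u y) else 0)
        = ∑ x, ∑ y, (if adj x y then (u x - u y) * (v x - v y) else 0) := by
      apply Finset.sum_congr rfl
      intro x _
      apply Finset.sum_congr rfl
      intro y _
      split_ifs <;> ring
    linarith
  have hEc : ∀ u : Ω → ℝ, ∀ x y, κ x = κ y → cexp κ u x = cexp κ u y :=
    fun u x y hxy => cexp_congr_fibre' κ u hxy
  have hEE : ∀ u : Ω → ℝ, cexp κ (cexp κ u) = cexp κ u :=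
    fun u => cexp_eq_self_of_const' κ _ (hEc u)
  have hEL : ∀ u : Ω → ℝ, cexp κ (Lop u) = 0 := by
    intro u
    apply eq_zero_of_ip_self'
    rw [cexp_symm', hEE, ip_comm']
    exact hLc _ _ (hEc _)
  let T : (Ω → ℝ) →ₗ[ℝ] (Ω → ℝ) := Lop - (2 : ℝ) • (LinearMap.id - cexp κ)
  have hT : ∀ u, T u = Lop u - (2 : ℝ) • (u - cexp κ u) := fun _ => rfl
  have hTsym : ∀ u v, ip (T u) v = ip u (T v) := by
    intro u v
    rw [hT, hT, ip_comm' (Lop u - (2 : ℝ) • (u - cexp κ u)) v, ip_sub_right', ip_sub_right',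
      ip_smul_right', ip_smul_right', ip_sub_right', ip_sub_right', ip_comm' v (Lop u), hLsym,
      ip_comm' v u, ip_comm' v (cexp κ u), cexp_symm']
  have hform := form_nonneg_of_eigen T hTsym ?_ f
  · rw [hT, ip_sub_right', ip_smul_right', ip_sub_right'] at hform
    have h1 := hD f f
    have h2 : ∑ x, ∑ y, (if adj x y then (f x - f y) ^ 2 else 0)
        = ∑ x, ∑ y, (if adj x y then (f x - f y) * (f x - f y) else 0) := by
      apply Finset.sum_congr rfl
      intro x _
      apply Finset.sum_congr rfl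
      intro y _
      split_ifs <;> ring
    rw [h2, ← h1]
    linarith
  · intro g μ hg hTg
    by_contra hμ
    push Not at hμ
    -- E g = 0
    have hEg : cexp κ g = 0 := by
      have h1 : cexp κ (T g) = 0 := by
        rw [hT, map_sub, map_smul, map_sub, hEL, hEE]
        simp
      rw [hTg, map_smul] at h1
      rcases smul_eq_zero.mp h1 with h2 | h2
      · exact absurd h2 hμ.ne
      · exact h2
    have hLg : ∀ z, Lop g z = (μ + 2) * g z := by
      intro z
      have h1 := congrFun hTg z
      rw [hT, hEg] at h1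
      simp only [Pi.sub_apply, Pi.smul_apply, smul_eq_mul, sub_zero] at h1
      linarith
    -- an edge along which g is not constant
    have hedge : ∃ x y, adj x y ∧ g x ≠ g y := by
      by_contra hcon
      push Not at hcon
      have h0 : ∀ x y, Relation.ReflTransGen adj x y → g x = g y := by
        intro x y hr
        induction hr with
        | refl => rfl
        | tail _ hbc ih => rw [ih, hcon _ _ hbc]
      have h1 : ∀ x y, κ x = κ y → g x = g y := fun x y hxy => h0 x y (hconn x y hxy)
      have h2 := cexp_eq_self_of_const' κ g h1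
      rw [hEg] at h2
      exact hg h2.symm
    obtain ⟨x, y, hxy, hgxy⟩ := hedge
    obtain ⟨σ, hσx, hinv, haut, hfix⟩ := hσ x y hxy
    have hadj : ∀ z w, adj (σ z) (σ w) ↔ adj z w := by
      intro z w
      constructor
      · intro h
        have h1 := haut _ _ h
        rwa [hinv, hinv] at h1
      · exact haut z w
    let G : Ω → ℝ := fun z => g z - g (σ z)
    have hG : ∀ z, G z = g z - g (σ z) := fun _ => rfl
    have hGσ : ∀ z, G (σ z) = - G z := by
      intro z
      rw [hG, hG, hinv]
      ring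
    have hLσ : ∀ z, Lop g (σ z) = ∑ w, if adj z w then g (σ z) - g (σ w) else 0 := by
      intro z
      rw [hL, ← Equiv.sum_comp (Function.Involutive.toPerm σ hinv)]
      apply Finset.sum_congr rfl
      intro w _
      have e : (Function.Involutive.toPerm σ hinv) w = σ w := rfl
      simp only [e, hadj]
    have hLG : ∀ z, Lop G z = (μ + 2) * G z := by
      intro z
      have h1 : Lop G z = Lop g z - Lop g (σ z) := by
        rw [hL, hL, hLσ, ← Finset.sum_sub_distrib]
        apply Finset.sum_congr rfl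
        intro w _
        split_ifs
        · rw [hG, hG]
          ring
        · ring
      rw [h1, hLg, hLg, hG]
      ring
    obtain ⟨z0, -, hz0⟩ := Finset.exists_max_image univ (fun z => |G z|) ⟨x, mem_univ x⟩
    have hGx : G x ≠ 0 := by
      rw [hG, hσx]
      exact sub_ne_zero.mpr hgxy
    have hpos : 0 < |G z0| := lt_of_lt_of_le (abs_pos.mpr hGx) (hz0 x (mem_univ x))
    obtain ⟨z1, hz1⟩ : ∃ z1, G z1 = |G z0| := by
      rcases le_or_gt 0 (G z0) with h0 | h0
      · exact ⟨z0, (abs_of_nonneg h0).symm⟩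
      · exact ⟨σ z0, by rw [hGσ, abs_of_neg h0]⟩
    have hmax : ∀ w, G w ≤ G z1 := by
      intro w
      rw [hz1]
      exact le_trans (le_abs_self _) (hz0 w (mem_univ w))
    have hne : σ z1 ≠ z1 := by
      intro h
      have h1 : G z1 = 0 := by
        rw [hG, h]
        ring
      rw [h1] at hz1
      linarith
    have hadj1 : adj z1 (σ z1) := (hfix z1).resolve_left hne
    have h2 : G z1 - G (σ z1) ≤ Lop G z1 := by
      rw [hL]
      have h3 := Finset.single_le_sum (f := fun w => if adj z1 w then G z1 - G w else 0)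
        (s := univ) (fun w _ => by
          show 0 ≤ (if adj z1 w then G z1 - G w else 0)
          split_ifs
          · linarith [hmax w]
          · exact le_rfl) (mem_univ (σ z1))
      simpa [hadj1] using h3
    rw [hLG, hGσ] at h2
    have h4 : 0 < G z1 := by
      rw [hz1]
      exact hpos
    nlinarith

section concrete

variable {m n : ℕ}

/-- the number of entries `1` of column `l` inside the two rows `i`, `i'` -/
def pcnt (x : Mat m n) (i i' : Fin m) (l : Fin n) : ℕ :=
  (if l ∈ x i then 1 else 0) + (if l ∈ x i' then 1 else 0)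

theorem pcnt_comm (x : Mat m n) (i i' : Fin m) (l : Fin n) : pcnt x i i' l = pcnt x i' i l := by
  unfold pcnt
  ring

theorem colSum_eq_pcnt_add (x : Mat m n) (i i' : Fin m) (hii : i ≠ i') (l : Fin n) :
    colSum x l = pcnt x i i' l + ∑ k ∈ (univ.erase i).erase i', (if l ∈ x k then 1 else 0) := by
  unfold colSum pcnt
  rw [Finset.card_filter]
  have h1 : i' ∈ (univ : Finset (Fin m)).erase i := by
    rw [Finset.mem_erase]
    exact ⟨fun h => hii h.symm, mem_univ _⟩
  rw [← Finset.add_sum_erase univ _ (mem_univ i), ← Finset.add_sum_erase _ _ h1]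
  ring

theorem pcnt_eq_of_colSum_eq (x y : Mat m n) (i i' : Fin m) (hii : i ≠ i')
    (hrest : ∀ k, k ≠ i → k ≠ i' → y k = x k) (l : Fin n) (hc : colSum y l = colSum x l) :
    pcnt y i i' l = pcnt x i i' l := by
  rw [colSum_eq_pcnt_add x i i' hii l, colSum_eq_pcnt_add y i i' hii l] at hc
  have h1 : ∑ k ∈ (univ.erase i).erase i', (if l ∈ y k then 1 else 0)
      = ∑ k ∈ (univ.erase i).erase i', (if l ∈ x k then 1 else 0) := by
    apply Finset.sum_congr rfl
    intro k hk
    rw [Finset.mem_erase, Finset.mem_erase] at hk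
    rw [hrest k hk.2.1 hk.1]
  omega

theorem colSum_eq_of_pcnt_eq (x y : Mat m n) (i i' : Fin m) (hii : i ≠ i')
    (hrest : ∀ k, k ≠ i → k ≠ i' → y k = x k) (l : Fin n) (hc : pcnt y i i' l = pcnt x i i' l) :
    colSum y l = colSum x l := by
  rw [colSum_eq_pcnt_add x i i' hii l, colSum_eq_pcnt_add y i i' hii l]
  have h1 : ∑ k ∈ (univ.erase i).erase i', (if l ∈ y k then 1 else 0)
      = ∑ k ∈ (univ.erase i).erase i', (if l ∈ x k then 1 else 0) := by
    apply Finset.sum_congr rfl
    intro k hk
    rw [Finset.mem_erase, Finset.mem_erase] at hk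
    rw [hrest k hk.2.1 hk.1]
  omega

theorem swMat_fst (x : Mat m n) (i i' : Fin m) (hii : i ≠ i') (j j' : Fin n) :
    swMat x i i' j j' i = insert j' ((x i).erase j) := by
  unfold swMat
  rw [Function.update_of_ne hii, Function.update_self]

theorem swMat_snd (x : Mat m n) (i i' : Fin m) (j j' : Fin n) :
    swMat x i i' j j' i' = insert j ((x i').erase j') := by
  unfold swMat
  rw [Function.update_self]

theorem swMat_other (x : Mat m n) (i i' : Fin m) (j j' : Fin n) (k : Fin m) (h1 : k ≠ i)
    (h2 : k ≠ i') : swMat x i i' j j' k = x k := by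
  unfold swMat
  rw [Function.update_of_ne h2, Function.update_of_ne h1]

/-- the switch on rows `i`, `i'` and columns `j`, `j'` is available at `x` -/
def Vsw (x : Mat m n) (i i' : Fin m) (j j' : Fin n) : Prop :=
  i ≠ i' ∧ j ≠ j' ∧ j ∈ x i ∧ j' ∉ x i ∧ j' ∈ x i' ∧ j ∉ x i'

theorem pcnt_swMat (x : Mat m n) (i i' : Fin m) (j j' : Fin n) (h : Vsw x i i' j j')
    (l : Fin n) : pcnt (swMat x i i' j j') i i' l = pcnt x i i' l := by
  obtain ⟨hii, hjj, h1, h2, h3, h4⟩ := h
  unfold pcnt
  rw [swMat_fst x i i' hii, swMat_snd]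
  by_cases hl : l = j
  · subst hl
    simp [h1, h4, hjj]
  · by_cases hl' : l = j'
    · subst hl'
      simp [h2, h3, Ne.symm hjj]
    · simp [hl, hl']

theorem card_swMat_fst (x : Mat m n) (i i' : Fin m) (j j' : Fin n) (h : Vsw x i i' j j') :
    (swMat x i i' j j' i).card = (x i).card := by
  obtain ⟨hii, hjj, h1, h2, h3, h4⟩ := h
  rw [swMat_fst x i i' hii, Finset.card_insert_of_notMem, Finset.card_erase_of_mem h1]
  · have := Finset.card_pos.mpr ⟨j, h1⟩
    omega
  · intro h5
    exact h2 (Finset.mem_of_mem_erase h5)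

theorem card_swMat_snd (x : Mat m n) (i i' : Fin m) (j j' : Fin n) (h : Vsw x i i' j j') :
    (swMat x i i' j j' i').card = (x i').card := by
  obtain ⟨hii, hjj, h1, h2, h3, h4⟩ := h
  rw [swMat_snd x i i', Finset.card_insert_of_notMem, Finset.card_erase_of_mem h3]
  · have := Finset.card_pos.mpr ⟨j', h3⟩
    omega
  · intro h5
    exact h4 (Finset.mem_of_mem_erase h5)

theorem Vsw_swMat (x : Mat m n) (i i' : Fin m) (j j' : Fin n) (h : Vsw x i i' j j') :
    Vsw (swMat x i i' j j') i i' j' j := by
  obtain ⟨hii, hjj, h1, h2, h3, h4⟩ := h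
  refine ⟨hii, fun h => hjj h.symm, ?_, ?_, ?_, ?_⟩
  · rw [swMat_fst x i i' hii]
    simp
  · rw [swMat_fst x i i' hii]
    simp [hjj]
  · rw [swMat_snd]
    simp
  · rw [swMat_snd]
    simp [Ne.symm hjj]

theorem swMat_swMat (x : Mat m n) (i i' : Fin m) (j j' : Fin n) (h : Vsw x i i' j j') :
    swMat (swMat x i i' j j') i i' j' j = x := by
  obtain ⟨hii, hjj, h1, h2, h3, h4⟩ := h
  funext k
  by_cases hk' : k = i'
  · subst hk'
    rw [swMat_snd, swMat_snd, Finset.erase_insert, Finset.insert_erase h3]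
    intro h5
    exact h4 (Finset.mem_of_mem_erase h5)
  · by_cases hk : k = i
    · subst hk
      rw [swMat_fst _ _ _ hii, swMat_fst _ _ _ hii, Finset.erase_insert, Finset.insert_erase h1]
      intro h5
      exact h2 (Finset.mem_of_mem_erase h5)
    · rw [swMat_other _ _ _ _ _ _ hk hk', swMat_other _ _ _ _ _ _ hk hk']


/-- the membership predicate of `Om` -/
def InOm (r : Fin m → ℕ) (c : Fin n → ℕ) (x : Mat m n) : Prop :=
  (∀ i, (x i).card = r i) ∧ ∀ j, colSum x j = c j

theorem InOm_swMat {r : Fin m → ℕ} {c : Fin n → ℕ} (x : Mat m n) (i i' : Fin m) (j j' : Fin n)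
    (h : Vsw x i i' j j') (hx : InOm r c x) : InOm r c (swMat x i i' j j') := by
  constructor
  · intro k
    by_cases hk' : k = i'
    · subst hk'
      rw [card_swMat_snd x i k j j' h]
      exact hx.1 k
    · by_cases hk : k = i
      · subst hk
        rw [card_swMat_fst x k i' j j' h]
        exact hx.1 k
      · rw [swMat_other _ _ _ _ _ _ hk hk']
        exact hx.1 k
  · intro l
    rw [colSum_eq_of_pcnt_eq x (swMat x i i' j j') i i' h.1
      (fun k h1 h2 => swMat_other x i i' j j' k h1 h2) l (pcnt_swMat x i i' j j' h l)]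
    exact hx.2 l

theorem isSwitchIn_iff (p : Finset (Fin m)) (x y : Mat m n) :
    IsSwitchIn p x y ↔ ∃ i i' j j', i ∈ p ∧ i' ∈ p ∧ Vsw x i i' j j' ∧ y = swMat x i i' j j' := by
  constructor
  · rintro ⟨i, i', j, j', h1, h2, h3, h4, h5, h6, h7, h8, h9⟩
    exact ⟨i, i', j, j', h1, h2, ⟨h3, h4, h5, h6, h7, h8⟩, h9⟩
  · rintro ⟨i, i', j, j', h1, h2, ⟨h3, h4, h5, h6, h7, h8⟩, h9⟩
    exact ⟨i, i', j, j', h1, h2, h3, h4, h5, h6, h7, h8, h9⟩

theorem isSwitchIn_symm (p : Finset (Fin m)) (x y : Mat m n) (h : IsSwitchIn p x y) :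
    IsSwitchIn p y x := by
  rw [isSwitchIn_iff] at h ⊢
  obtain ⟨i, i', j, j', h1, h2, h3, rfl⟩ := h
  exact ⟨i, i', j', j, h1, h2, Vsw_swMat x i i' j j' h3, (swMat_swMat x i i' j j' h3).symm⟩

theorem isSwitchIn_inOm {r : Fin m → ℕ} {c : Fin n → ℕ} (p : Finset (Fin m)) (x y : Mat m n)
    (h : IsSwitchIn p x y) (hx : InOm r c x) : InOm r c y := by
  rw [isSwitchIn_iff] at h
  obtain ⟨i, i', j, j', h1, h2, h3, rfl⟩ := h
  exact InOm_swMat x i i' j j' h3 hx

theorem mask_eq_iff (p : Finset (Fin m)) (x y : Mat m n) :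
    mask p x = mask p y ↔ ∀ k, k ∉ p → x k = y k := by
  constructor
  · intro h k hk
    have h1 := congrFun h k
    simpa [mask, hk] using h1
  · intro h
    funext k
    by_cases hk : k ∈ p
    · simp [mask, hk]
    · simp [mask, hk, h k hk]

theorem isSwitchIn_mask (p : Finset (Fin m)) (x y : Mat m n) (h : IsSwitchIn p x y) :
    mask p x = mask p y := by
  rw [isSwitchIn_iff] at h
  obtain ⟨i, i', j, j', h1, h2, h3, rfl⟩ := h
  rw [mask_eq_iff]
  intro k hk
  have hki : k ≠ i := fun e => hk (e ▸ h1)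
  have hki' : k ≠ i' := fun e => hk (e ▸ h2)
  exact (swMat_other x i i' j j' k hki hki').symm

/-- a column permutation acting on the rows in `p` only -/
def colAct (p : Finset (Fin m)) (π : Equiv.Perm (Fin n)) (x : Mat m n) : Mat m n :=
  fun k => if k ∈ p then (x k).map π.toEmbedding else x k

theorem colAct_mem (p : Finset (Fin m)) (π : Equiv.Perm (Fin n)) (x : Mat m n) (k : Fin m)
    (hk : k ∈ p) : colAct p π x k = (x k).map π.toEmbedding := by
  unfold colAct
  rw [if_pos hk]

theorem colAct_notMem (p : Finset (Fin m)) (π : Equiv.Perm (Fin n)) (x : Mat m n) (k : Fin m)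
    (hk : k ∉ p) : colAct p π x k = x k := by
  unfold colAct
  rw [if_neg hk]

theorem colAct_swMat (p : Finset (Fin m)) (π : Equiv.Perm (Fin n)) (x : Mat m n) (i i' : Fin m)
    (j j' : Fin n) (hi : i ∈ p) (hi' : i' ∈ p) (hii : i ≠ i') :
    colAct p π (swMat x i i' j j') = swMat (colAct p π x) i i' (π j) (π j') := by
  funext k
  by_cases hk' : k = i'
  · subst hk'
    rw [colAct_mem _ _ _ _ hi', swMat_snd, swMat_snd, colAct_mem _ _ _ _ hi', Finset.map_insert,
      Finset.map_erase]
    rfl
  · by_cases hk : k = i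
    · subst hk
      rw [colAct_mem _ _ _ _ hi, swMat_fst _ _ _ hii, swMat_fst _ _ _ hii,
        colAct_mem _ _ _ _ hi, Finset.map_insert, Finset.map_erase]
      rfl
    · rw [swMat_other _ _ _ _ _ _ hk hk']
      by_cases hkp : k ∈ p
      · rw [colAct_mem _ _ _ _ hkp, colAct_mem _ _ _ _ hkp, swMat_other _ _ _ _ _ _ hk hk']
      · rw [colAct_notMem _ _ _ _ hkp, colAct_notMem _ _ _ _ hkp, swMat_other _ _ _ _ _ _ hk hk']

theorem Vsw_colAct (p : Finset (Fin m)) (π : Equiv.Perm (Fin n)) (x : Mat m n) (i i' : Fin m)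
    (j j' : Fin n) (hi : i ∈ p) (hi' : i' ∈ p) (h : Vsw x i i' j j') :
    Vsw (colAct p π x) i i' (π j) (π j') := by
  obtain ⟨hii, hjj, h1, h2, h3, h4⟩ := h
  have e : ∀ (S : Finset (Fin n)) (a : Fin n), π a ∈ S.map π.toEmbedding ↔ a ∈ S := by
    intro S a
    exact Finset.mem_map' π.toEmbedding
  refine ⟨hii, fun h => hjj (π.injective h), ?_, ?_, ?_, ?_⟩
  · rw [colAct_mem _ _ _ _ hi, e]
    exact h1
  · rw [colAct_mem _ _ _ _ hi, e]
    exact h2
  · rw [colAct_mem _ _ _ _ hi', e]
    exact h3
  · rw [colAct_mem _ _ _ _ hi', e]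
    exact h4

theorem isSwitchIn_colAct (p : Finset (Fin m)) (π : Equiv.Perm (Fin n)) (x y : Mat m n)
    (h : IsSwitchIn p x y) : IsSwitchIn p (colAct p π x) (colAct p π y) := by
  rw [isSwitchIn_iff] at h ⊢
  obtain ⟨i, i', j, j', h1, h2, h3, rfl⟩ := h
  exact ⟨i, i', π j, π j', h1, h2, Vsw_colAct p π x i i' j j' h1 h2 h3,
    colAct_swMat p π x i i' j j' h1 h2 h3.1⟩

theorem colAct_symm_colAct (p : Finset (Fin m)) (π : Equiv.Perm (Fin n)) (x : Mat m n) :
    colAct p π.symm (colAct p π x) = x := by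
  funext k
  by_cases hk : k ∈ p
  · rw [colAct_mem _ _ _ _ hk, colAct_mem _ _ _ _ hk]
    ext l
    rw [Finset.mem_map_equiv, Finset.mem_map_equiv]
    simp
  · rw [colAct_notMem _ _ _ _ hk, colAct_notMem _ _ _ _ hk]

theorem mask_colAct (p : Finset (Fin m)) (π : Equiv.Perm (Fin n)) (x : Mat m n) :
    mask p (colAct p π x) = mask p x := by
  rw [mask_eq_iff]
  intro k hk
  exact colAct_notMem p π x k hk

theorem map_swap_of_mem_notMem (S : Finset (Fin n)) (a b : Fin n) (hab : a ≠ b) (ha : a ∈ S)
    (hb : b ∉ S) : S.map (Equiv.swap a b).toEmbedding = insert b (S.erase a) := by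
  ext l
  rw [Finset.mem_map_equiv, Equiv.symm_swap, Finset.mem_insert, Finset.mem_erase]
  by_cases hla : l = a
  · subst hla
    simp [hb, hab]
  · by_cases hlb : l = b
    · subst hlb
      simp [ha]
    · rw [Equiv.swap_apply_of_ne_of_ne hla hlb]
      simp [hla, hlb]

theorem map_swap_of_iff (S : Finset (Fin n)) (a b : Fin n) (h : a ∈ S ↔ b ∈ S) :
    S.map (Equiv.swap a b).toEmbedding = S := by
  ext l
  rw [Finset.mem_map_equiv, Equiv.symm_swap]
  by_cases hla : l = a
  · subst hla
    rw [Equiv.swap_apply_left]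
    exact h.symm
  · by_cases hlb : l = b
    · subst hlb
      rw [Equiv.swap_apply_right]
      exact h
    · rw [Equiv.swap_apply_of_ne_of_ne hla hlb]


theorem colAct_swap_eq_swMat (p : Finset (Fin m)) (x : Mat m n) (i i' : Fin m) (j j' : Fin n)
    (hi : i ∈ p) (hi' : i' ∈ p) (hpp : ∀ k ∈ p, k = i ∨ k = i') (h : Vsw x i i' j j') :
    colAct p (Equiv.swap j j') x = swMat x i i' j j' := by
  obtain ⟨hii, hjj, h1, h2, h3, h4⟩ := h
  funext k
  by_cases hk' : k = i'
  · subst hk'
    rw [colAct_mem _ _ _ _ hi', swMat_snd, Equiv.swap_comm,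
      map_swap_of_mem_notMem _ j' j (Ne.symm hjj) h3 h4]
  · by_cases hk : k = i
    · subst hk
      rw [colAct_mem _ _ _ _ hi, swMat_fst _ _ _ hii, map_swap_of_mem_notMem _ j j' hjj h1 h2]
    · have hkp : k ∉ p := by
        intro h
        rcases hpp k h with e | e
        · exact hk e
        · exact hk' e
      rw [colAct_notMem _ _ _ _ hkp, swMat_other _ _ _ _ _ _ hk hk']

theorem colAct_swap_eq_self (p : Finset (Fin m)) (x : Mat m n) (i i' : Fin m) (j j' : Fin n)
    (hpp : ∀ k ∈ p, k = i ∨ k = i') (h1 : j ∈ x i ↔ j' ∈ x i) (h2 : j ∈ x i' ↔ j' ∈ x i') :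
    colAct p (Equiv.swap j j') x = x := by
  funext k
  by_cases hkp : k ∈ p
  · rw [colAct_mem _ _ _ _ hkp]
    rcases hpp k hkp with e | e
    · subst e
      exact map_swap_of_iff _ _ _ h1
    · subst e
      exact map_swap_of_iff _ _ _ h2
  · rw [colAct_notMem _ _ _ _ hkp]

theorem pair_mem (p : Finset (Fin m)) (hp : p.card = 2) (i i' : Fin m) (hi : i ∈ p)
    (hi' : i' ∈ p) (hii : i ≠ i') : ∀ k ∈ p, k = i ∨ k = i' := by
  have h1 : ({i, i'} : Finset (Fin m)) = p := by
    apply Finset.eq_of_subset_of_card_le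
    · intro k hk
      rw [Finset.mem_insert, Finset.mem_singleton] at hk
      rcases hk with rfl | rfl
      · exact hi
      · exact hi'
    · rw [hp, Finset.card_pair hii]
  intro k hk
  rw [← h1, Finset.mem_insert, Finset.mem_singleton] at hk
  exact hk

theorem exists_sigma {r : Fin m → ℕ} {c : Fin n → ℕ} (p : Finset (Fin m)) (hp : p.card = 2)
    (x y : Om m n r c) (hxy : IsSwitchIn p x.1 y.1) :
    ∃ σ : Om m n r c → Om m n r c, σ x = y ∧ (∀ z, σ (σ z) = z) ∧
      (∀ z w : Om m n r c, IsSwitchIn p z.1 w.1 → IsSwitchIn p (σ z).1 (σ w).1) ∧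
      (∀ z, σ z = z ∨ IsSwitchIn p z.1 (σ z).1) := by
  classical
  rw [isSwitchIn_iff] at hxy
  obtain ⟨i, i', j, j', hi, hi', hv, hy⟩ := hxy
  have hii : i ≠ i' := hv.1
  have hjj : j ≠ j' := hv.2.1
  have hpp := pair_mem p hp i i' hi hi' hii
  have e2 : ∀ w : Mat m n, colAct p (Equiv.swap j j') (colAct p (Equiv.swap j j') w) = w := by
    intro w
    have h1 := colAct_symm_colAct p (Equiv.swap j j') w
    rwa [Equiv.symm_swap] at h1
  let σ : Om m n r c → Om m n r c := fun z =>
    if h : InOm r c (colAct p (Equiv.swap j j') z.1) then ⟨colAct p (Equiv.swap j j') z.1, h⟩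
    else z
  have hσ1 : ∀ (z : Om m n r c) (h : InOm r c (colAct p (Equiv.swap j j') z.1)),
      σ z = ⟨colAct p (Equiv.swap j j') z.1, h⟩ := fun z h => dif_pos h
  have hσ2 : ∀ z : Om m n r c, ¬ InOm r c (colAct p (Equiv.swap j j') z.1) → σ z = z :=
    fun z h => dif_neg h
  refine ⟨σ, ?_, ?_, ?_, ?_⟩
  · have e : colAct p (Equiv.swap j j') x.1 = y.1 := by
      rw [colAct_swap_eq_swMat p x.1 i i' j j' hi hi' hpp hv, hy]
    have h : InOm r c (colAct p (Equiv.swap j j') x.1) := by
      rw [e]
      exact y.2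
    rw [hσ1 x h]
    exact Subtype.ext e
  · intro z
    by_cases h : InOm r c (colAct p (Equiv.swap j j') z.1)
    · rw [hσ1 z h]
      have h' : InOm r c (colAct p (Equiv.swap j j')
          (⟨colAct p (Equiv.swap j j') z.1, h⟩ : Om m n r c).1) := by
        show InOm r c (colAct p (Equiv.swap j j') (colAct p (Equiv.swap j j') z.1))
        rw [e2]
        exact z.2
      rw [hσ1 _ h']
      exact Subtype.ext (e2 z.1)
    · rw [hσ2 z h, hσ2 z h]
  · intro z w hzw
    have hc := isSwitchIn_colAct p (Equiv.swap j j') z.1 w.1 hzw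
    by_cases h : InOm r c (colAct p (Equiv.swap j j') z.1)
    · have h' : InOm r c (colAct p (Equiv.swap j j') w.1) := isSwitchIn_inOm p _ _ hc h
      rw [hσ1 z h, hσ1 w h']
      exact hc
    · have h' : ¬ InOm r c (colAct p (Equiv.swap j j') w.1) := by
        intro h'
        exact h (isSwitchIn_inOm p _ _ (isSwitchIn_symm p _ _ hc) h')
      rw [hσ2 z h, hσ2 w h']
      exact hzw
  · intro z
    by_cases h : InOm r c (colAct p (Equiv.swap j j') z.1)
    · rw [hσ1 z h]
      have hpc : pcnt (colAct p (Equiv.swap j j') z.1) i i' j = pcnt z.1 i i' j := by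
        apply pcnt_eq_of_colSum_eq z.1 (colAct p (Equiv.swap j j') z.1) i i' hii
        · intro k hk hk'
          apply colAct_notMem
          intro hkp
          rcases hpp k hkp with e | e
          · exact hk e
          · exact hk' e
        · rw [h.2 j, z.2.2 j]
      have hpc2 : pcnt (colAct p (Equiv.swap j j') z.1) i i' j = pcnt z.1 i i' j' := by
        unfold pcnt
        rw [colAct_mem _ _ _ _ hi, colAct_mem _ _ _ _ hi']
        simp only [Finset.mem_map_equiv, Equiv.symm_swap, Equiv.swap_apply_left]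
      rw [hpc2] at hpc
      have hcase : Vsw z.1 i i' j j' ∨ Vsw z.1 i i' j' j ∨
          ((j ∈ z.1 i ↔ j' ∈ z.1 i) ∧ (j ∈ z.1 i' ↔ j' ∈ z.1 i')) := by
        unfold pcnt at hpc
        by_cases h1 : j ∈ z.1 i <;> by_cases h2 : j' ∈ z.1 i <;> by_cases h3 : j ∈ z.1 i' <;>
          by_cases h4 : j' ∈ z.1 i' <;>
          first
            | (exfalso
               simp [h1, h2, h3, h4] at hpc
               done)
            | (left
               exact ⟨hii, hjj, h1, h2, h4, h3⟩)
            | (right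
               left
               exact ⟨hii, Ne.symm hjj, h2, h1, h3, h4⟩)
            | (right
               right
               simp [h1, h2, h3, h4])
      rcases hcase with hc | hc | hc
      · right
        rw [isSwitchIn_iff]
        exact ⟨i, i', j, j', hi, hi', hc, colAct_swap_eq_swMat p z.1 i i' j j' hi hi' hpp hc⟩
      · right
        rw [isSwitchIn_iff]
        refine ⟨i, i', j', j, hi, hi', hc, ?_⟩
        show colAct p (Equiv.swap j j') z.1 = swMat z.1 i i' j' j
        rw [Equiv.swap_comm]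
        exact colAct_swap_eq_swMat p z.1 i i' j' j hi hi' hpp hc
      · left
        exact Subtype.ext (colAct_swap_eq_self p z.1 i i' j j' hpp hc.1 hc.2)
    · rw [hσ2 z h]
      left
      rfl


theorem fibre_connected_aux {r : Fin m → ℕ} {c : Fin n → ℕ} (a b : Fin m) (hab : a ≠ b) :
    ∀ (d : ℕ) (x y : Om m n r c), mask {a, b} x.1 = mask {a, b} y.1 →
      ((x.1 a) \ (y.1 a)).card = d →
      Relation.ReflTransGen (fun u v : Om m n r c => IsSwitchIn {a, b} u.1 v.1) x y := by
  intro d
  induction d with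
  | zero =>
    intro x y hm hd
    have hrest : ∀ k, k ≠ a → k ≠ b → y.1 k = x.1 k := by
      intro k hka hkb
      have h1 : k ∉ ({a, b} : Finset (Fin m)) := by
        rw [Finset.mem_insert, Finset.mem_singleton]
        tauto
      exact ((mask_eq_iff _ _ _).mp hm k h1).symm
    have hpc : ∀ l, pcnt y.1 a b l = pcnt x.1 a b l := fun l =>
      pcnt_eq_of_colSum_eq x.1 y.1 a b hab hrest l (by rw [y.2.2 l, x.2.2 l])
    have hsub : x.1 a ⊆ y.1 a := by
      rw [← Finset.sdiff_eq_empty_iff_subset, ← Finset.card_eq_zero]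
      exact hd
    have hxa : x.1 a = y.1 a := by
      apply Finset.eq_of_subset_of_card_le hsub
      rw [x.2.1 a, y.2.1 a]
    have hxb : x.1 b = y.1 b := by
      ext l
      have h1 := hpc l
      unfold pcnt at h1
      rw [hxa] at h1
      by_cases h2 : l ∈ x.1 b <;> by_cases h3 : l ∈ y.1 b
      · simp [h2, h3]
      · simp [h2, h3] at h1
      · simp [h2, h3] at h1
      · simp [h2, h3]
    have hxy : x = y := by
      apply Subtype.ext
      funext k
      by_cases hka : k = a
      · subst hka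
        exact hxa
      · by_cases hkb : k = b
        · subst hkb
          exact hxb
        · exact (hrest k hka hkb).symm
    rw [hxy]
  | succ d ih =>
    intro x y hm hd
    have hrest : ∀ k, k ≠ a → k ≠ b → y.1 k = x.1 k := by
      intro k hka hkb
      have h1 : k ∉ ({a, b} : Finset (Fin m)) := by
        rw [Finset.mem_insert, Finset.mem_singleton]
        tauto
      exact ((mask_eq_iff _ _ _).mp hm k h1).symm
    have hpc : ∀ l, pcnt y.1 a b l = pcnt x.1 a b l := fun l =>
      pcnt_eq_of_colSum_eq x.1 y.1 a b hab hrest l (by rw [y.2.2 l, x.2.2 l])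
    have hcard : (x.1 a).card = (y.1 a).card := by
      rw [x.2.1 a, y.2.1 a]
    have hd' : ((y.1 a) \ (x.1 a)).card = d + 1 := by
      rw [← Finset.card_sdiff_comm hcard]
      exact hd
    obtain ⟨j, hj⟩ : ((x.1 a) \ (y.1 a)).Nonempty := by
      rw [← Finset.card_pos, hd]
      omega
    obtain ⟨j', hj'⟩ : ((y.1 a) \ (x.1 a)).Nonempty := by
      rw [← Finset.card_pos, hd']
      omega
    rw [Finset.mem_sdiff] at hj hj'
    have hjj : j ≠ j' := by
      intro e
      rw [e] at hj
      exact hj'.2 hj.1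
    have hjb : j ∉ x.1 b := by
      have h1 := hpc j
      unfold pcnt at h1
      intro h2
      simp [hj.1, hj.2, h2] at h1
      split_ifs at h1
      omega
    have hj'b : j' ∈ x.1 b := by
      have h1 := hpc j'
      unfold pcnt at h1
      by_contra h2
      simp [hj'.1, hj'.2, h2] at h1
    have hv : Vsw x.1 a b j j' := ⟨hab, hjj, hj.1, hj'.2, hj'b, hjb⟩
    let x' : Om m n r c := ⟨swMat x.1 a b j j', InOm_swMat x.1 a b j j' hv x.2⟩
    have hstep : IsSwitchIn {a, b} x.1 x'.1 := by
      rw [isSwitchIn_iff]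
      exact ⟨a, b, j, j', by simp, by simp, hv, rfl⟩
    have hm' : mask {a, b} x'.1 = mask {a, b} y.1 := (isSwitchIn_mask _ _ _ hstep).symm.trans hm
    have hd2 : ((x'.1 a) \ (y.1 a)).card = d := by
      have h1 : (x'.1 a) \ (y.1 a) = ((x.1 a) \ (y.1 a)).erase j := by
        show (swMat x.1 a b j j' a) \ (y.1 a) = ((x.1 a) \ (y.1 a)).erase j
        rw [swMat_fst _ _ _ hab]
        ext l
        simp only [Finset.mem_sdiff, Finset.mem_insert, Finset.mem_erase]
        constructor
        · rintro ⟨h1 | h1, h2⟩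
          · rw [h1] at h2
            exact absurd hj'.1 h2
          · exact ⟨h1.1, h1.2, h2⟩
        · rintro ⟨h1, h2, h3⟩
          exact ⟨Or.inr ⟨h1, h2⟩, h3⟩
      rw [h1, Finset.card_erase_of_mem (Finset.mem_sdiff.mpr hj), hd]
      rfl
    exact Relation.ReflTransGen.head hstep (ih x' y hm' hd2)

theorem fibre_connected {r : Fin m → ℕ} {c : Fin n → ℕ} (p : Finset (Fin m)) (hp : p.card = 2)
    (x y : Om m n r c) (h : mask p x.1 = mask p y.1) :
    Relation.ReflTransGen (fun u v : Om m n r c => IsSwitchIn p u.1 v.1) x y := by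
  obtain ⟨a, b, hab, rfl⟩ := Finset.card_eq_two.mp hp
  exact fibre_connected_aux a b hab _ x y h rfl

/-- **Johnson step.** For a pair `p` of rows, the Dirichlet form of the switches inside `p`
(sum over ordered pairs) is at least `4 (I - R p)`, that is, the switch Laplacian of the pair
dominates `2 (I - R p)`. -/
theorem johnson_pair {r : Fin m → ℕ} {c : Fin n → ℕ} (p : Finset (Fin m)) (hp : p.card = 2)
    [∀ x y : Mat m n, Decidable (IsSwitchIn p x y)] (f : Om m n r c → ℝ) :
    4 * (ip f f - ip f (R p f))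
      ≤ ∑ x : Om m n r c, ∑ y : Om m n r c,
          if IsSwitchIn p x.1 y.1 then (f x - f y) ^ 2 else 0 := by
  exact gap_two_of_involutions (fun x : Om m n r c => mask p x.1)
    (fun x y : Om m n r c => IsSwitchIn p x.1 y.1)
    (fun x y h => isSwitchIn_symm p _ _ h) (fun x y h => isSwitchIn_mask p _ _ h)
    (fun x y h => fibre_connected p hp x y h) (fun x y h => exists_sigma p hp x y h) f

end concrete

end Vale.Agent.Lib.P335.Bip.H50
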