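import Mathlib
import Vale.Agent.Lib.P335.helper26.ThreeDefs

/-!
Assembly of the three-row lemma of P335 from its pieces (antisymmetric part, level counting,
factorisation of invariant functions through hole counts, abstract three-site lemma).
The pieces enter as explicit hypotheses, stated exactly as the corresponding job theorems
specialised to the given `n`, `r`, `c`.
-/

namespace Vale.Agent.Lib.P335.Bip

open Finset

namespace H50

/-- sums over the 2-subsets of `Fin 3` are sums over the complements of single points -/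
theorem sum_pairs_fin3 {M : Type*} [AddCommMonoid M] (F : Finset (Fin 3) → M) :
    ∑ p ∈ (univ : Finset (Fin 3)).powersetCard 2, F p = ∑ l : Fin 3, F (univ.erase l) := by
  have h : (univ : Finset (Fin 3)).powersetCard 2
      = (univ : Finset (Fin 3)).image (fun l => univ.erase l) := by decide
  rw [h, Finset.sum_image]
  intro a _ b _ hab
  revert a b
  decide

/-- conditional expectation preserves sums over measurable sets -/
theorem sum_cexp_of_meas {Ω K : Type*} [Fintype Ω] [DecidableEq K] (κ : Ω → K) (S : Ω → Prop)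
    [DecidablePred S] (hS : ∀ x y, κ x = κ y → (S x ↔ S y)) (f : Ω → ℝ) :
    ∑ x ∈ univ.filter S, cexp κ f x = ∑ x ∈ univ.filter S, f x := by
  have h1 : cexp κ (fun x => if S x then (1 : ℝ) else 0) = fun x => if S x then (1 : ℝ) else 0 := by
    apply cexp_of_factor
    intro x y hxy
    simp only [hS x y hxy]
  have h2 := cexp_symm κ (fun x => if S x then (1 : ℝ) else 0) f
  rw [h1] at h2
  unfold ip at h2
  simp only [ite_mul, one_mul, zero_mul] at h2
  rw [Finset.sum_filter, Finset.sum_filter]
  exact h2

end H50

/-- **Three-row lemma, assembled from its pieces.** For a three-row margin system the three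
pair resampling operators satisfy `∑_p R p ≤ 2 + R univ`. -/
theorem threeRow_of_pieces {n : ℕ} {r : Fin 3 → ℕ} {c : Fin n → ℕ}
    (hanti : ∀ (u u' : Fin n) (h : c u = c u') (F : Om 3 n r c → ℝ),
      (∀ x, F (swapOm u u' h x) = - F x) →
      ∑ p ∈ (univ : Finset (Fin 3)).powersetCard 2, ip F (R p F) ≤ 2 * ip F F)
    (hsum : ∀ x : Om 3 n r c, ∑ l, hcnt c x.1 l = ncol c 2)
    (hlevel : ∀ (_ : Om 3 n r c) (b : Fin 3 → ℕ), ∑ l, b l = ncol c 2 →
      ((univ.filter (fun x : Om 3 n r c => ∀ l, hcnt c x.1 l = b l)).card : ℝ)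
        = ((ncol c 2).factorial : ℝ) * ((ncol c 1).factorial : ℝ) * ∏ l, w3 r c l (b l))
    (hinvf : ∀ F : Om 3 n r c → ℝ,
      (∀ (u u' : Fin n) (h : c u = c u') (x : Om 3 n r c), F (swapOm u u' h x) = F x) →
      (∀ x y : Om 3 n r c, (∀ l, hcnt c x.1 l = hcnt c y.1 l) → F x = F y) ∧
      (∀ (l : Fin 3) (x y : Om 3 n r c), hcnt c x.1 l = hcnt c y.1 l →
        R (univ.erase l) F x = R (univ.erase l) F y))
    (h3site : ∀ (B : ℕ) (γ : Fin 3 → ℕ → ℝ) (lam : ℝ), 1 < lam →
      (∀ l, ∑ b ∈ simplex B, (∏ i, w3 r c i (b i)) * γ l (b l) = 0) →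
      (∀ l s, lam * (∑ b ∈ (simplex B).filter (fun b => b l = s), ∏ i, w3 r c i (b i)) * γ l s
        = ∑ b ∈ (simplex B).filter (fun b => b l = s),
            (∏ i, w3 r c i (b i)) * ∑ j ∈ (univ : Finset (Fin 3)).erase l, γ j (b j)) →
      ∀ b ∈ simplex B, 0 < ∏ i, w3 r c i (b i) → ∀ l, γ l (b l) = 0)
    (f : Om 3 n r c → ℝ) :
    ∑ q ∈ (univ : Finset (Fin 3)).powersetCard 2, ip f (R q f)
      ≤ 2 * ip f f + ip f (R univ f) := by
  classical
  let A : (Om 3 n r c → ℝ) →ₗ[ℝ] (Om 3 n r c → ℝ) :=
    (∑ q ∈ (univ : Finset (Fin 3)).powersetCard 2, R q) - R univ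
  have hA : ∀ g, A g = (∑ q ∈ (univ : Finset (Fin 3)).powersetCard 2, R q g) - R univ g := by
    intro g
    simp only [A, LinearMap.sub_apply, LinearMap.sum_apply]
  have hRsymm : ∀ (p : Finset (Fin 3)) (u v : Om 3 n r c → ℝ), ip u (R p v) = ip (R p u) v :=
    fun p u v => cexp_symm _ u v
  have hAsymm : ∀ u v, ip u (A v) = ip (A u) v := by
    intro u v
    rw [hA, hA, ip_sub_right, ip_sub_left, ip_sum_right, ip_sum_left, hRsymm]
    congr 1
    exact Finset.sum_congr rfl (fun p _ => hRsymm p u v)
  have hmain := form_le_of_eigen A hAsymm 2 ?_ f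
  · rw [hA, ip_sub_right, ip_sum_right] at hmain
    linarith
  · intro μ g hg0 hAg
    by_contra hμ
    push Not at hμ
    -- Step 1: the mean of g vanishes
    have htow : ∀ p : Finset (Fin 3), R (univ : Finset (Fin 3)) (R p g) = R univ g := by
      intro p
      unfold R
      apply cexp_tower
      intro x y _
      funext i
      simp [mask]
    have hRu : R (univ : Finset (Fin 3)) g = 0 := by
      have h1 : R (univ : Finset (Fin 3)) (A g) = (2 : ℝ) • R univ g := by
        rw [hA, map_sub, map_sum, Finset.sum_congr rfl (fun p _ => htow p), htow,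
          Finset.sum_const, Finset.card_powersetCard, Finset.card_univ, Fintype.card_fin]
        funext x
        simp only [Pi.sub_apply, Pi.smul_apply, smul_eq_mul]
        norm_num [Nat.choose]
        ring
      rw [hAg, map_smul] at h1
      funext x
      have h2 := congrFun h1 x
      simp only [Pi.smul_apply, smul_eq_mul, Pi.zero_apply] at h2 ⊢
      have h3 : (μ - 2) * R (univ : Finset (Fin 3)) g x = 0 := by linarith
      rcases mul_eq_zero.mp h3 with h4 | h4
      · linarith
      · exact h4
    have hsum0 : ∑ x, g x = 0 := by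
      have h1 := sum_cexp (fun x : Om 3 n r c => mask (univ : Finset (Fin 3)) x.1) g
      have h2 : cexp (fun x : Om 3 n r c => mask (univ : Finset (Fin 3)) x.1) g = R univ g := rfl
      rw [h2, hRu] at h1
      simpa using h1.symm
    have hev0 : ∑ q ∈ (univ : Finset (Fin 3)).powersetCard 2, R q g = μ • g := by
      have h1 := hA g
      rw [hAg, hRu, sub_zero] at h1
      exact h1.symm
    -- Step 2: g is invariant under all swaps of equal-sum columns
    have hinv : ∀ (u u' : Fin n) (h : c u = c u') (x : Om 3 n r c),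
        g (swapOm u u' h x) = g x := by
      intro u u' h
      let G : Om 3 n r c → ℝ := g - g ∘ swapOm u u' h
      have hGdef : G = g - g ∘ swapOm u u' h := rfl
      have hGanti : ∀ x, G (swapOm u u' h x) = - G x := by
        intro x
        simp only [hGdef, Pi.sub_apply, Function.comp_apply, swapOm_swapOm]
        ring
      have hRG : ∀ p : Finset (Fin 3), R p G = R p g - R p g ∘ swapOm u u' h := by
        intro p
        rw [hGdef, map_sub, R_swapOm]
      have hsumG : ∑ q ∈ (univ : Finset (Fin 3)).powersetCard 2, R q G = μ • G := by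
        rw [Finset.sum_congr rfl (fun p _ => hRG p), Finset.sum_sub_distrib, hev0]
        have h1 : ∑ q ∈ (univ : Finset (Fin 3)).powersetCard 2, (R q g ∘ swapOm u u' h)
            = (μ • g) ∘ swapOm u u' h := by
          rw [← hev0]
          funext x
          simp only [Finset.sum_apply, Function.comp_apply]
        rw [h1, hGdef]
        funext x
        simp only [Pi.sub_apply, Pi.smul_apply, Function.comp_apply, smul_eq_mul]
        ring
      have h1 := hanti u u' h G hGanti
      have h2 : ∑ p ∈ (univ : Finset (Fin 3)).powersetCard 2, ip G (R p G) = μ * ip G G := by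
        rw [← ip_sum_right, hsumG, ip_smul_right]
      rw [h2] at h1
      have h3 : ip G G ≤ 0 := by nlinarith [ip_self_nonneg G]
      have h4 : G = 0 := ip_self_eq_zero.mp (le_antisymm h3 (ip_self_nonneg G))
      intro x
      have h5 := congrFun h4 x
      simp only [hGdef, Pi.sub_apply, Function.comp_apply, Pi.zero_apply] at h5
      linarith
    -- Step 3: factorisation through hole counts
    obtain ⟨_, hRfac⟩ := hinvf g hinv
    let γ : Fin 3 → ℕ → ℝ := fun l s =>
      if h : ∃ x : Om 3 n r c, hcnt c x.1 l = s then R (univ.erase l) g h.choose else 0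
    have hγ : ∀ (l : Fin 3) (x : Om 3 n r c), R (univ.erase l) g x = γ l (hcnt c x.1 l) := by
      intro l x
      have h : ∃ y : Om 3 n r c, hcnt c y.1 l = hcnt c x.1 l := ⟨x, rfl⟩
      show _ = (if h : ∃ y : Om 3 n r c, hcnt c y.1 l = hcnt c x.1 l
        then R (univ.erase l) g h.choose else 0)
      rw [dif_pos h]
      exact hRfac l x _ h.choose_spec.symm
    have hg : ∀ x, μ * g x = ∑ l, γ l (hcnt c x.1 l) := by
      intro x
      have h1 := congrFun hev0 x
      rw [H50.sum_pairs_fin3 (fun q => R q g)] at h1
      simp only [Finset.sum_apply, Pi.smul_apply, smul_eq_mul] at h1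
      rw [← h1]
      exact Finset.sum_congr rfl (fun l _ => hγ l x)
    -- Step 4: transfer to the lattice simplex
    obtain ⟨x0, hx0⟩ : ∃ x0, g x0 ≠ 0 := by
      by_contra hcon
      push Not at hcon
      exact hg0 (funext hcon)
    let bx : Om 3 n r c → (Fin 3 → ℕ) := fun x l => hcnt c x.1 l
    have hbx : ∀ x, bx x ∈ simplex (ncol c 2) := by
      intro x
      unfold simplex
      rw [Finset.mem_filter, Fintype.mem_piFinset]
      refine ⟨fun l => ?_, hsum x⟩
      have h1 := hsum x
      have h2 : hcnt c x.1 l ≤ ∑ l, hcnt c x.1 l :=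
        Finset.single_le_sum (f := fun l => hcnt c x.1 l) (fun _ _ => Nat.zero_le _) (mem_univ l)
      rw [Finset.mem_range]
      show hcnt c x.1 l < ncol c 2 + 1
      omega
    have hC : 0 < ((ncol c 2).factorial : ℝ) * ((ncol c 1).factorial : ℝ) := by positivity
    have hN : ∀ b ∈ simplex (ncol c 2),
        ((univ.filter (fun x : Om 3 n r c => bx x = b)).card : ℝ)
          = ((ncol c 2).factorial : ℝ) * ((ncol c 1).factorial : ℝ) * ∏ i, w3 r c i (b i) := by
      intro b hb
      have hb' : ∑ l, b l = ncol c 2 := by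
        unfold simplex at hb
        exact (Finset.mem_filter.mp hb).2
      rw [← hlevel x0 b hb']
      congr 2
      ext x
      simp only [Finset.mem_filter, Finset.mem_univ, true_and]
      constructor
      · intro h l
        exact congrFun h l
      · intro h
        funext l
        exact h l
    have htrans : ∀ φ : (Fin 3 → ℕ) → ℝ, ∑ x : Om 3 n r c, φ (bx x)
        = ((ncol c 2).factorial : ℝ) * ((ncol c 1).factorial : ℝ)
          * ∑ b ∈ simplex (ncol c 2), (∏ i, w3 r c i (b i)) * φ b := by
      intro φ
      rw [← Finset.sum_fiberwise_of_maps_to (s := univ) (t := simplex (ncol c 2)) (g := bx)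
        (fun x _ => hbx x), Finset.mul_sum]
      apply Finset.sum_congr rfl
      intro b hb
      rw [Finset.sum_congr rfl (fun x hx => by rw [(Finset.mem_filter.mp hx).2]),
        Finset.sum_const, nsmul_eq_mul, hN b hb]
      ring
    have hzero : ∀ a : ℝ, ((ncol c 2).factorial : ℝ) * ((ncol c 1).factorial : ℝ) * a = 0 →
        a = 0 := by
      intro a ha
      rcases mul_eq_zero.mp ha with h | h
      · exact absurd h hC.ne'
      · exact h
    have hmean : ∀ l, ∑ b ∈ simplex (ncol c 2), (∏ i, w3 r c i (b i)) * γ l (b l) = 0 := by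
      intro l
      have h1 := htrans (fun b => γ l (b l))
      have h2 : ∑ x : Om 3 n r c, γ l (bx x l) = 0 := by
        rw [← Finset.sum_congr rfl (fun x _ => hγ l x)]
        have h3 := sum_cexp (fun x : Om 3 n r c => mask (univ.erase l) x.1) g
        have h4 : cexp (fun x : Om 3 n r c => mask (univ.erase l) x.1) g = R (univ.erase l) g :=
          rfl
        rw [h4] at h3
        rw [h3, hsum0]
      rw [h2] at h1
      exact hzero _ h1.symm
    have hmeas : ∀ (l : Fin 3) (s : ℕ) (x y : Om 3 n r c),
        mask (univ.erase l) x.1 = mask (univ.erase l) y.1 → (bx x l = s ↔ bx y l = s) := by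
      intro l s x y hxy
      have h1 := congrFun hxy l
      simp only [mask, Finset.mem_erase, ne_eq, not_true_eq_false, false_and, if_false] at h1
      show hcnt c x.1 l = s ↔ hcnt c y.1 l = s
      unfold hcnt
      rw [h1]
    have hev : ∀ l s, (μ - 1) * (∑ b ∈ (simplex (ncol c 2)).filter (fun b => b l = s),
          ∏ i, w3 r c i (b i)) * γ l s
        = ∑ b ∈ (simplex (ncol c 2)).filter (fun b => b l = s),
            (∏ i, w3 r c i (b i)) * ∑ j ∈ (univ : Finset (Fin 3)).erase l, γ j (b j) := by
      intro l s
      have h1 := htrans (fun b => if b l = s then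
        ((μ - 1) * γ l s - ∑ j ∈ (univ : Finset (Fin 3)).erase l, γ j (b j)) else 0)
      have h2 : ∑ x : Om 3 n r c, (if bx x l = s then
          ((μ - 1) * γ l s - ∑ j ∈ (univ : Finset (Fin 3)).erase l, γ j (bx x j)) else 0) = 0 := by
        rw [← Finset.sum_filter]
        have h3 : ∀ x ∈ univ.filter (fun x : Om 3 n r c => bx x l = s),
            ((μ - 1) * γ l s - ∑ j ∈ (univ : Finset (Fin 3)).erase l, γ j (bx x j))
              = μ * (R (univ.erase l) g x - g x) := by
          intro x hx
          have hxs : hcnt c x.1 l = s := (Finset.mem_filter.mp hx).2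
          have h4 := hg x
          rw [← Finset.add_sum_erase univ (fun j => γ j (hcnt c x.1 j)) (mem_univ l), hxs] at h4
          rw [hγ l x, hxs, mul_sub, h4]
          show (μ - 1) * γ l s - ∑ j ∈ (univ : Finset (Fin 3)).erase l, γ j (hcnt c x.1 j) = _
          ring
        rw [Finset.sum_congr rfl h3, ← Finset.mul_sum, Finset.sum_sub_distrib]
        have h5 := H50.sum_cexp_of_meas (fun x : Om 3 n r c => mask (univ.erase l) x.1)
          (fun x => bx x l = s) (hmeas l s) g
        have h6 : cexp (fun x : Om 3 n r c => mask (univ.erase l) x.1) g = R (univ.erase l) g :=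
          rfl
        rw [h6] at h5
        rw [h5, sub_self, mul_zero]
      rw [h2] at h1
      have h4 := hzero _ h1.symm
      have h5 : ∑ b ∈ simplex (ncol c 2), (∏ i, w3 r c i (b i)) * (if b l = s then
          ((μ - 1) * γ l s - ∑ j ∈ (univ : Finset (Fin 3)).erase l, γ j (b j)) else 0)
          = ∑ b ∈ (simplex (ncol c 2)).filter (fun b => b l = s), (∏ i, w3 r c i (b i)) *
            ((μ - 1) * γ l s - ∑ j ∈ (univ : Finset (Fin 3)).erase l, γ j (b j)) := by
        rw [Finset.sum_filter]
        apply Finset.sum_congr rfl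
        intro b _
        split_ifs <;> simp
      rw [h5] at h4
      have h6 : ∑ b ∈ (simplex (ncol c 2)).filter (fun b => b l = s), (∏ i, w3 r c i (b i)) *
            ((μ - 1) * γ l s - ∑ j ∈ (univ : Finset (Fin 3)).erase l, γ j (b j))
          = (μ - 1) * (∑ b ∈ (simplex (ncol c 2)).filter (fun b => b l = s),
              ∏ i, w3 r c i (b i)) * γ l s
            - ∑ b ∈ (simplex (ncol c 2)).filter (fun b => b l = s),
              (∏ i, w3 r c i (b i)) * ∑ j ∈ (univ : Finset (Fin 3)).erase l, γ j (b j) := by
        rw [Finset.mul_sum, Finset.sum_mul, ← Finset.sum_sub_distrib]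
        apply Finset.sum_congr rfl
        intro b _
        ring
      rw [h6] at h4
      linarith
    -- Step 5: the abstract three-site lemma kills γ
    have hz := h3site (ncol c 2) γ (μ - 1) (by linarith) hmean hev
    have hW : 0 < ∏ i, w3 r c i (bx x0 i) := by
      have h1 := hN (bx x0) (hbx x0)
      have h2 : 0 < ((univ.filter (fun y : Om 3 n r c => bx y = bx x0)).card : ℝ) := by
        have h3 : x0 ∈ univ.filter (fun y : Om 3 n r c => bx y = bx x0) := by simp
        exact_mod_cast Finset.card_pos.mpr ⟨x0, h3⟩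
      rw [h1] at h2
      exact (mul_pos_iff_of_pos_left hC).mp h2
    have h7 := hg x0
    have h8 : ∑ l, γ l (hcnt c x0.1 l) = 0 :=
      Finset.sum_eq_zero (fun l _ => hz (bx x0) (hbx x0) hW l)
    rw [h8] at h7
    rcases mul_eq_zero.mp h7 with h9 | h9
    · linarith
    · exact hx0 h9

end Vale.Agent.Lib.P335.Bip
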